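import Vale.Agent.P139Z.Step.Approx

/-!
Block STEP, auxiliary file: splitting into low and high frequencies.
-/

open Set Filter Topology MeasureTheory Complex
open scoped NNReal ENNReal ComplexConjugate ContDiff

namespace Vale.Agent.P139Z.Step

open Vale.Agent.P139 Vale.Agent.P139.A Vale.Agent.P139.A.WA XW

variable {d k : ℕ}

theorem summable_lo {lam M : ℝ} (hlam : 0 < lam) (hM : 0 ≤ M) (a : WA d k) :
    Summable fun n : Lat d => W (k + 1) n * ‖if lam * ‖n‖ ≤ M then coef a n else 0‖ := by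
  refine Summable.of_nonneg_of_le (fun n => mul_nonneg (W_pos n).le (norm_nonneg _)) (fun n => ?_)
    (a.summable.mul_left (1 + M / lam))
  have h0 : 0 ≤ W k n * ‖coef a n‖ := mul_nonneg (W_pos n).le (norm_nonneg _)
  split_ifs with h
  · have h1 : ‖n‖ ≤ M / lam := by rw [le_div_iff₀ hlam]; linarith
    have h2 : W (k + 1) n = (1 + ‖n‖) * W k n := by unfold W; ring
    rw [h2, mul_assoc]
    exact mul_le_mul_of_nonneg_right (by linarith) h0
  · rw [norm_zero, mul_zero]
    positivity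

/-- The low-frequency part, in the space of higher order. -/
noncomputable def lo {lam M : ℝ} (hlam : 0 < lam) (hM : 0 ≤ M) (a : WA d k) : WA d (k + 1) :=
  WA.mk (fun n => if lam * ‖n‖ ≤ M then coef a n else 0) (summable_lo hlam hM a)

theorem coef_lo {lam M : ℝ} (hlam : 0 < lam) (hM : 0 ≤ M) (a : WA d k) (n : Lat d) :
    coef (lo hlam hM a) n = if lam * ‖n‖ ≤ M then coef a n else 0 := coef_mk _ _ _

theorem nrm_lo_succ {lam M : ℝ} (hlam : 0 < lam) (hM : 0 ≤ M) (a : WA d k) :
    nrm lam (k + 1) (lo hlam hM a) ≤ (1 + M) * nrm lam k a := by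
  unfold nrm
  rw [← tsum_mul_left]
  refine (summable_nrm hlam.le le_rfl _).tsum_le_tsum (fun n => ?_)
    ((summable_nrm hlam.le le_rfl a).mul_left _)
  rw [coef_lo]
  have h0 : 0 ≤ (1 + lam * ‖n‖) ^ k * ‖coef a n‖ := by positivity
  split_ifs with h
  · rw [pow_succ', mul_assoc]
    exact mul_le_mul_of_nonneg_right (by linarith) h0
  · rw [norm_zero, mul_zero]
    positivity

theorem nrm_lo {lam M : ℝ} (hlam : 0 < lam) (hM : 0 ≤ M) (a : WA d k) :
    nrm lam k (lo hlam hM a) ≤ nrm lam k a := by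
  unfold nrm
  refine (summable_nrm hlam.le (Nat.le_succ k) _).tsum_le_tsum (fun n => ?_)
    (summable_nrm hlam.le le_rfl a)
  rw [coef_lo]
  split_ifs with h
  · exact le_rfl
  · rw [norm_zero, mul_zero]
    positivity

theorem coef_per_incl {ρ : ℝ} (hρ : 0 < ρ) (F : XW d (k + 1)) (n : Lat d) :
    coef (per ρ (incl F : XW d k)) n = coef (per ρ F) n := by
  rw [coef_per hρ, coef_per hρ]
  exact integral_congr_ae (ae_restrict_of_ae (fn_incl F))

theorem exists_split (hk : 1 ≤ k) {lam M : ℝ} (hlam : 0 < lam) (hlam1 : lam ≤ 1) (hM : 0 ≤ M)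
    (a : WA d k) : ∃ F : XW d (k + 1), ‖F‖ ≤ 2 ^ (k + 1) * ((1 + M) * nrm lam k a) ∧
      ‖(incl F : XW d k)‖ ≤ 2 ^ k * nrm lam k a ∧
      nrm lam k (a - per lam (incl F)) ≤ nrm lam k a ∧
      nrm lam (k - 1) (a - per lam (incl F)) ≤ nrm lam k a / (1 + M) := by
  have hc : ∀ n, coef (a - per lam (incl (extn lam (lo hlam hM a)))) n
      = if lam * ‖n‖ ≤ M then 0 else coef a n := by
    intro n
    rw [coef_sub, coef_per_incl hlam, per_extn hlam, coef_lo]
    split_ifs <;> simp
  have h2 : ∀ j : ℕ, (1 + lam / 2) ^ j ≤ 2 ^ j := fun j =>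
    pow_le_pow_left₀ (by positivity) (by linarith) j
  refine ⟨extn lam (lo hlam hM a), ?_, ?_, ?_, ?_⟩
  · rw [XW.norm_eq]
    exact (nrmX_extn hlam le_rfl _).trans
      (mul_le_mul (h2 _) (nrm_lo_succ hlam hM a) (nrm_nonneg hlam.le _ _) (by positivity))
  · rw [XW.norm_eq, nrmX_incl]
    exact (nrmX_extn hlam (Nat.le_succ k) _).trans
      (mul_le_mul (h2 _) (nrm_lo hlam hM a) (nrm_nonneg hlam.le _ _) (by positivity))
  · unfold nrm
    refine (summable_nrm hlam.le le_rfl _).tsum_le_tsum (fun n => ?_)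
      (summable_nrm hlam.le le_rfl a)
    rw [hc]
    split_ifs with h
    · rw [norm_zero, mul_zero]
      positivity
    · exact le_rfl
  · unfold nrm
    rw [← tsum_div_const]
    refine (summable_nrm hlam.le (Nat.sub_le k 1) _).tsum_le_tsum (fun n => ?_)
      ((summable_nrm hlam.le le_rfl a).div_const _)
    rw [hc]
    split_ifs with h
    · rw [norm_zero, mul_zero]
      positivity
    · rw [le_div_iff₀ (by positivity)]
      obtain ⟨j, rfl⟩ : ∃ j, k = j + 1 := ⟨k - 1, by omega⟩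
      rw [Nat.add_sub_cancel, pow_succ, mul_right_comm]
      refine mul_le_mul_of_nonneg_right ?_ (norm_nonneg _)
      exact mul_le_mul_of_nonneg_left (by linarith [not_le.1 h]) (by positivity)

end Vale.Agent.P139Z.Step
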