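import Vale.Agent.P139Z.Step.Final
import Vale.Agent.P139Z.Step.Split

/-!
Block STEP, auxiliary file: comparison with the linearized flow on the whole space.
-/

open Set Filter Topology MeasureTheory Complex
open scoped NNReal ENNReal ComplexConjugate ContDiff

namespace Vale.Agent.P139Z.Step

open Vale.Agent.P139 Vale.Agent.P139.A Vale.Agent.P139.A.WA XW

variable {d k m : ℕ}

theorem core_src {Cr A δ ε N C2 p M f n : ℝ} (hCr : 0 ≤ Cr) (hA : 1 ≤ A) (hδ : 0 < δ)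
    (hδ1 : δ ≤ 1) (hε : 0 ≤ ε) (hεδ : ε ≤ δ) (hN : 0 ≤ N) (hC2 : 0 ≤ C2) (hp : 0 ≤ p) (hM : 0 ≤ M)
    (hf : f = A * (δ + ε)) (hn : n ≤ C2 * (p * ((1 + M) * δ))) :
    Cr * f ^ 2 + ε * (3 + N + 3 * n)
      ≤ 4 * Cr * A ^ 2 * δ ^ 2 + (3 + N + 3 * (C2 * p)) * (ε * (1 + M)) := by
  have h1 : f ≤ 2 * A * δ := by rw [hf]; nlinarith
  have h2 : f ^ 2 ≤ (2 * A * δ) ^ 2 := pow_le_pow_left₀ (by rw [hf]; positivity) h1 2
  have h3 := mul_le_mul_of_nonneg_left h2 hCr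
  have h4 : C2 * (p * ((1 + M) * δ)) ≤ C2 * (p * ((1 + M) * 1)) := by gcongr
  have h5 : ε * n ≤ ε * (C2 * (p * ((1 + M) * 1))) := mul_le_mul_of_nonneg_left (hn.trans h4) hε
  have h6 : 0 ≤ (3 + N) * (ε * M) := by positivity
  nlinarith

theorem core_fin {Cz c₁ c₂ A x y z : ℝ} (hCz : 0 ≤ Cz) (hc₁ : 0 ≤ c₁) (hc₂ : 0 ≤ c₂) (hA : 1 ≤ A)
    (hx : 0 ≤ x) (hy : 0 ≤ y) (hz : 0 ≤ z) :
    Cz * (x + (c₁ * y + c₂ * z)) ≤ (2 * A + 1 + Cz * (1 + c₁ + c₂)) * (x + y + z) := by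
  have h1 : x + (c₁ * y + c₂ * z) ≤ (1 + c₁ + c₂) * (x + y + z) := by
    have : 0 ≤ (c₁ + c₂) * x + (1 + c₂) * y + (1 + c₁) * z := by positivity
    nlinarith
  have h2 := mul_le_mul_of_nonneg_left h1 hCz
  have h3 : 0 ≤ (2 * A + 1) * (x + y + z) := by positivity
  nlinarith

/-- Up to a small error the solution is the profile plus a solution of the linearized equation. -/
theorem core (B : Bg d m) (hm : 1 ≤ m) (hk : 2 ≤ k) (hkK : B.K0 + 1 ≤ k / 4) {τ : ℝ}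
    (hτ : 0 ≤ τ) : ∃ C : ℝ, 1 ≤ C ∧ ∀ (lam ε δ M : ℝ) (Us : ℝ → WA d k), 0 < lam → lam ≤ 1 →
      0 ≤ M → 0 < δ → ε ≤ δ → C * δ ≤ 1 → (∀ s ∈ Icc 0 τ, Err B k (rho lam s) ε) →
      Lin B.Λ lam τ Us (fun s => (-I) • nl m (Us s)) →
      nrm lam k (Us 0 - per lam (B.Qh k)) ≤ δ →
      ∃ Z : ℝ → XW d k, B.IsMild k τ Z ∧ ‖Z 0‖ ≤ 2 ^ k * δ ∧
        nrm (rho lam τ) k (Us τ - per (rho lam τ) (B.Qh k) - per (rho lam τ) (T B.Λ 1 τ (Z τ)))
          ≤ Real.exp (-τ) * δ + C * (δ / (1 + M) + δ ^ 2 + ε * (1 + M)) := by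
  obtain ⟨A, hA, hw⟩ := w_bound B hk hτ
  obtain ⟨Cr, hCr, hsrc⟩ := src_split B hm k
  obtain ⟨C2, hC2, hmild⟩ := B.exists_mild (k + 1) τ
  obtain ⟨Cz, hCz, hz⟩ := z_bound (d := d) (K1 := 2 ^ k * (‖B.V1h k‖ + ‖B.V2h k‖))
    (K0_nonneg B) (by positivity) hτ hkK
  obtain ⟨c₁, hc₁⟩ : ∃ c, c = 4 * Cr * A ^ 2 := ⟨_, rfl⟩
  obtain ⟨c₂, hc₂⟩ : ∃ c, c = 3 + ‖B.Qh (k + 1)‖ + 3 * (C2 * 2 ^ (k + 1)) := ⟨_, rfl⟩
  have hc₁0 : 0 ≤ c₁ := by rw [hc₁]; positivity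
  have hc₂0 : 0 ≤ c₂ := by rw [hc₂]; positivity
  have hCC : 0 ≤ Cz * (1 + c₁ + c₂) := by positivity
  refine ⟨2 * A + 1 + Cz * (1 + c₁ + c₂), by linarith, ?_⟩
  intro lam ε δ M Us hlam hlam1 hM hδ hεδ hCδ hErr hUs h0
  have hε : 0 ≤ ε := (hErr 0 ⟨le_rfl, hτ⟩).nonneg
  have hCδ' : (2 * A + 1) * δ ≤ 1 := by nlinarith
  have hδ1 : δ ≤ 1 := by nlinarith
  have hsmall : A * (δ + ε) < 1 := by nlinarith
  have hwb := hw lam ε δ Us hlam hδ.le hErr hUs h0 hsmall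
  obtain ⟨F, hF1, hF2, hF3, hF4⟩ := exists_split (by omega : 1 ≤ k) hlam hlam1 hM
    (Us 0 - per lam (B.Qh k))
  obtain ⟨Z, hZ, hZ0, hZb⟩ := hmild F
  have hFn : ‖F‖ ≤ 2 ^ (k + 1) * ((1 + M) * δ) := hF1.trans (by gcongr)
  have hL := (hUs.sub (lin_q B hk hlam τ)).sub (lin_p B hk hlam hZ)
  obtain ⟨γ, hγ⟩ : ∃ γ, γ = c₁ * δ ^ 2 + c₂ * (ε * (1 + M)) := ⟨_, rfl⟩
  have hG : ∀ s ∈ Icc 0 τ, ∃ G : WA d k, src B k (rho lam s) (Us s) (T B.Λ 1 s (Z s))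
      = (-I) • (per (rho lam s) (B.V1h k) * (Us s - per (rho lam s) (B.Qh k)
          - per (rho lam s) (incl (T B.Λ 1 s (Z s))))
        + per (rho lam s) (B.V2h k) * star (Us s - per (rho lam s) (B.Qh k)
          - per (rho lam s) (incl (T B.Λ 1 s (Z s))))) + G ∧ nrm (rho lam s) k G ≤ γ := by
    intro s hs
    obtain ⟨G, hG1, hG2⟩ := hsrc _ ε _ (Us s) (T B.Λ 1 s (Z s)) (hErr s hs) (hwb s hs) hsmall.le
    refine ⟨G, hG1, hG2.trans ?_⟩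
    rw [hγ, hc₁, hc₂]
    exact core_src hCr hA hδ hδ1 hε hεδ (norm_nonneg _) hC2 (by positivity) hM rfl
      ((hZb s hs).trans (mul_le_mul_of_nonneg_left hFn hC2))
  have hfin := hz B.Λ lam δ (δ / (1 + M)) γ _ _ (Lam_re_nonneg B) hlam.le
    (by rw [hγ]; positivity) hL ?_ ?_ ?_ ?_
  · refine ⟨fun s => incl (Z s), hZ.incl B, ?_, ?_⟩
    · beta_reduce
      rw [hZ0]
      exact hF2.trans (by gcongr)
    · beta_reduce
      rw [← incl_T]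
      refine hfin.trans (add_le_add le_rfl ?_)
      rw [hγ]
      exact core_fin hCz hc₁0 hc₂0 hA (by positivity) (by positivity) (by positivity)
  · beta_reduce
    rw [rho_zero, T_zero, hZ0]
    exact hF3.trans h0
  · beta_reduce
    rw [rho_zero, T_zero, hZ0]
    exact hF4.trans (by gcongr)
  · intro s hs
    obtain ⟨G, hG1, hG2⟩ := hG s hs
    have h1 := pot_low B (hErr s hs).pos (hErr s hs).le_one (Us s - per (rho lam s) (B.Qh k)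
      - per (rho lam s) (incl (T B.Λ 1 s (Z s)))) G
    rw [← hG1] at h1
    exact h1.trans (add_le_add le_rfl hG2)
  · intro s hs
    obtain ⟨G, hG1, hG2⟩ := hG s hs
    have h1 := pot_high B hm (hErr s hs).pos (hErr s hs).le_one (Us s - per (rho lam s) (B.Qh k)
      - per (rho lam s) (incl (T B.Λ 1 s (Z s)))) G
    rw [← hG1] at h1
    exact h1.trans (add_le_add le_rfl hG2)

theorem exp_neg_le {τ c : ℝ} (hc : 0 < c) (h : c ≤ τ) : Real.exp (-τ) ≤ 1 / c := by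
  rw [Real.exp_neg, ← one_div]
  exact one_div_le_one_div_of_le hc (by linarith [Real.add_one_le_exp τ])

theorem final_real {p N C L δ ε M e κ a : ℝ} (hp : 1 ≤ p) (hN : 0 ≤ N) (hC : 1 ≤ C) (hL : 1 ≤ L)
    (hδ : 0 < δ) (hδ0 : δ ≤ 1 / (16 * p * C)) (hM : M = 16 * p * C)
    (hε : ε = δ / (16 * (N + 1) + 16 * p * C * (1 + M))) (he : e ≤ 1 / (16 * p))
    (hκ : κ ≤ 1 / (8 * p ^ 2 * L) * (L * (p * δ))) (ha : a ≤ 1 / (16 * p ^ 3) * (p * δ)) :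
    2 * ε * (N + 1) + p * κ
      + 2 * p * (p * a + (e * δ + C * (δ / (1 + M) + δ ^ 2 + ε * (1 + M)))) ≤ δ := by
  have hp0 : 0 < p := by linarith
  have hC0 : 0 < C := by linarith
  have hL0 : 0 < L := by linarith
  have hM0 : 0 < M := by rw [hM]; positivity
  have hε0 : 0 < ε := by rw [hε]; positivity
  have hε1 : ε * (16 * (N + 1) + 16 * p * C * (1 + M)) = δ := by
    rw [hε]; field_simp
  have t1 : 2 * ε * (N + 1) + 2 * p * (C * (ε * (1 + M))) = δ / 8 := by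
    rw [← hε1]; ring
  have t2 : p * κ ≤ δ / 8 := by
    refine (mul_le_mul_of_nonneg_left hκ hp0.le).trans (le_of_eq ?_)
    field_simp
  have t3 : 2 * p * (p * a) ≤ δ / 8 := by
    have := mul_le_mul_of_nonneg_left ha (by positivity : 0 ≤ 2 * p * p)
    refine (le_of_eq (by ring)).trans (this.trans (le_of_eq ?_))
    field_simp
    norm_num
  have t4 : 2 * p * (e * δ) ≤ δ / 8 := by
    have := mul_le_mul_of_nonneg_left he (by positivity : 0 ≤ 2 * p * δ)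
    refine (le_of_eq (by ring)).trans (this.trans (le_of_eq ?_))
    field_simp
    norm_num
  have t5 : 2 * p * (C * (δ / (1 + M))) ≤ δ / 8 := by
    have h1 : δ / (1 + M) ≤ δ / M := div_le_div_of_nonneg_left hδ.le hM0 (by linarith)
    have := mul_le_mul_of_nonneg_left h1 (by positivity : 0 ≤ 2 * p * C)
    refine (le_of_eq (by ring)).trans (this.trans (le_of_eq ?_))
    rw [hM]
    field_simp
    norm_num
  have t6 : 2 * p * (C * δ ^ 2) ≤ δ / 8 := by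
    have := mul_le_mul_of_nonneg_left hδ0 (by positivity : 0 ≤ 2 * p * C * δ)
    refine (le_of_eq (by ring)).trans (this.trans (le_of_eq ?_))
    field_simp
    norm_num
  nlinarith

end Vale.Agent.P139Z.Step
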