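import Vale.Agent.P139Z.Step.Lin

/-!
Block STEP, auxiliary file: the transfer to the torus is asymptotically multiplicative.
-/

open Set Filter Topology MeasureTheory Complex
open scoped NNReal ENNReal ComplexConjugate ContDiff

namespace Vale.Agent.P139Z.Step

open Vale.Agent.P139 Vale.Agent.P139.A Vale.Agent.P139.A.WA XW

variable {d k m : ℕ}

theorem nrm_zero (ρ : ℝ) (j : ℕ) : nrm ρ j (0 : WA d k) = 0 := by
  simp [nrm]

theorem nrm_sub_le {ρ : ℝ} (hρ : 0 ≤ ρ) {j : ℕ} (hj : j ≤ k) (a b : WA d k) :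
    nrm ρ j (a - b) ≤ nrm ρ j a + nrm ρ j b := by
  rw [sub_eq_add_neg, ← nrm_neg ρ j b]
  exact nrm_add_le hρ hj _ _

theorem nrm_shift (ρ : ℝ) (j : ℕ) (x : Fin d → ℝ) (a : WA d k) :
    nrm ρ j (shift x a) = nrm ρ j a := by
  unfold nrm
  refine tsum_congr fun n => ?_
  rw [coef_shift, norm_mul, norm_expi, one_mul]

theorem nrm_per_le {ρ : ℝ} (hρ : 0 < ρ) (hρ1 : ρ ≤ 1) (F : XW d k) :
    nrm ρ k (per ρ F) ≤ 2 ^ k * ‖F‖ := by
  refine (nrm_per hρ le_rfl F).trans ?_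
  rw [← XW.norm_eq]
  exact mul_le_mul_of_nonneg_right (pow_le_pow_left₀ (by positivity) (by linarith) k)
    (norm_nonneg _)

theorem nrm_per_zero {ρ : ℝ} (hρ : 0 < ρ) (F : XW d k) : nrm ρ 0 (per ρ F) ≤ nrmX 0 F := by
  simpa using nrm_per hρ (Nat.zero_le k) F

/-- The family `a` is asymptotic to the transfer of `A`. -/
def App (a : ℝ → WA d k) (A : XW d k) : Prop :=
  Tendsto (fun ρ => nrm ρ k (a ρ - per ρ A)) (𝓝[>] 0) (𝓝 0)

theorem ev_small : ∀ᶠ ρ : ℝ in 𝓝[>] 0, 0 < ρ ∧ ρ ≤ 1 := by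
  filter_upwards [Ioc_mem_nhdsGT zero_lt_one] with ρ hρ using hρ

theorem App.refl (A : XW d k) : App (fun ρ => per ρ A) A := by
  unfold App
  simp only [sub_self, nrm_zero]
  exact tendsto_const_nhds

theorem tendsto_conv (A C : XW d k) :
    Tendsto (fun ρ => nrm ρ k (per ρ A * per ρ C - per ρ (conv A C))) (𝓝[>] 0) (𝓝 0) := by
  rw [Metric.tendsto_nhds]
  intro ε hε
  obtain ⟨ρ₀, h0, h⟩ := per_conv A (ε / (2 * (‖C‖ + 1))) (by positivity)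
  filter_upwards [Ioc_mem_nhdsGT h0] with ρ hρ
  rw [Real.dist_eq, sub_zero, abs_of_nonneg (nrm_nonneg hρ.1.le _ _)]
  refine (h ρ hρ.1 hρ.2 C).trans_lt ?_
  have h1 : 0 ≤ ‖C‖ := norm_nonneg _
  rw [div_mul_eq_mul_div, div_lt_iff₀ (by positivity)]
  nlinarith

theorem App.mul {a c : ℝ → WA d k} {A C : XW d k} (ha : App a A) (hc : App c C) :
    App (fun ρ => a ρ * c ρ) (conv A C) := by
  unfold App at ha hc ⊢
  have h1 := ((Tendsto.mul ha hc).add ((ha.mul_const (2 ^ k * ‖C‖)).add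
    (hc.const_mul (2 ^ k * ‖A‖)))).add (tendsto_conv A C)
  simp only [mul_zero, zero_mul, add_zero] at h1
  refine squeeze_zero' ?_ ?_ h1
  · filter_upwards [ev_small] with ρ hρ using nrm_nonneg hρ.1.le _ _
  · filter_upwards [ev_small] with ρ hρ
    have e : a ρ * c ρ - per ρ (conv A C) = ((a ρ - per ρ A) * (c ρ - per ρ C)
        + ((a ρ - per ρ A) * per ρ C + per ρ A * (c ρ - per ρ C)))
        + (per ρ A * per ρ C - per ρ (conv A C)) := by ring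
    have h0 := hρ.1.le
    rw [e]
    refine (nrm_add_le h0 le_rfl _ _).trans (add_le_add ?_ le_rfl)
    refine (nrm_add_le h0 le_rfl _ _).trans (add_le_add (nrm_mul_le h0 le_rfl _ _) ?_)
    refine (nrm_add_le h0 le_rfl _ _).trans (add_le_add ?_ ?_)
    · exact (nrm_mul_le h0 le_rfl _ _).trans
        (mul_le_mul_of_nonneg_left (nrm_per_le hρ.1 hρ.2 C) (nrm_nonneg h0 _ _))
    · exact (nrm_mul_le h0 le_rfl _ _).trans
        (mul_le_mul_of_nonneg_right (nrm_per_le hρ.1 hρ.2 A) (nrm_nonneg h0 _ _))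

theorem App.star {a : ℝ → WA d k} {A : XW d k} (ha : App a A) :
    App (fun ρ => star (a ρ)) (st A) := by
  unfold App at ha ⊢
  refine ha.congr' ?_
  filter_upwards [ev_small] with ρ hρ
  rw [per_st hρ.1, ← star_sub, nrm_star]

theorem App.smul {a : ℝ → WA d k} {A : XW d k} (ha : App a A) (c : ℂ) :
    App (fun ρ => c • a ρ) (c • A) := by
  unfold App at ha ⊢
  have h := ha.const_mul ‖c‖
  rw [mul_zero] at h
  refine h.congr fun ρ => ?_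
  rw [map_smul, ← smul_sub, nrm_smul]

theorem App.cpow {a c : ℝ → WA d k} {A C : XW d k} (ha : App a A) (hc : App c C) (n : ℕ) :
    App (fun ρ => a ρ ^ n * c ρ) (cpow A n C) := by
  induction n with
  | zero => simpa [XW.cpow] using hc
  | succ n ih =>
    have h := ha.mul ih
    have e : XW.cpow A (n + 1) C = conv A (XW.cpow A n C) := by
      unfold XW.cpow
      rw [Function.iterate_succ_apply']
    rw [e]
    simpa only [pow_succ', mul_assoc] using h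

theorem App.exists_le {a : ℝ → WA d k} {A : XW d k} (ha : App a A) {ε : ℝ} (hε : 0 < ε) :
    ∀ᶠ ρ in 𝓝[>] (0 : ℝ), nrm ρ k (a ρ - per ρ A) ≤ ε :=
  (ha.eventually (gt_mem_nhds hε)).mono fun _ h => h.le

variable (B : Bg d m)

theorem app_S (k : ℕ) : App (fun ρ => per ρ (B.Qh k) * star (per ρ (B.Qh k))) (B.Sh k) :=
  (App.refl _).mul (App.refl _).star

theorem app_N (k : ℕ) : App (fun ρ => nl m (per ρ (B.Qh k))) (B.Nh k) :=
  (app_S B k).cpow (App.refl _) m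

theorem app_V1 (hm : 1 ≤ m) (k : ℕ) :
    App (fun ρ => ((m : ℂ) + 1) • (per ρ (B.Qh k) * star (per ρ (B.Qh k))) ^ m) (B.V1h k) := by
  have h := ((app_S B k).cpow (app_S B k) (m - 1)).smul ((m : ℂ) + 1)
  simp only [← pow_succ, Nat.sub_add_cancel hm] at h
  exact h

theorem app_V2 (k : ℕ) :
    App (fun ρ => (m : ℂ) • ((per ρ (B.Qh k) * star (per ρ (B.Qh k))) ^ (m - 1)
      * (per ρ (B.Qh k) * per ρ (B.Qh k)))) (B.V2h k) :=
  ((app_S B k).cpow ((App.refl _).mul (App.refl _)) (m - 1)).smul (m : ℂ)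

/-- All transfer errors at scale `ρ` are at most `ε`. -/
structure Err (k : ℕ) (ρ ε : ℝ) : Prop where
  pos : 0 < ρ
  le_one : ρ ≤ 1
  eN : nrm ρ k (nl m (per ρ (B.Qh k)) - per ρ (B.Nh k)) ≤ ε
  eV1 : nrm ρ k (((m : ℂ) + 1) • (per ρ (B.Qh k) * star (per ρ (B.Qh k))) ^ m
    - per ρ (B.V1h k)) ≤ ε
  eV2 : nrm ρ k ((m : ℂ) • ((per ρ (B.Qh k) * star (per ρ (B.Qh k))) ^ (m - 1)
    * (per ρ (B.Qh k) * per ρ (B.Qh k))) - per ρ (B.V2h k)) ≤ ε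
  c1 : ∀ F : XW d k,
    nrm ρ k (per ρ (B.V1h k) * per ρ F - per ρ (conv (B.V1h k) F)) ≤ ε * ‖F‖
  c2 : ∀ F : XW d k,
    nrm ρ k (per ρ (B.V2h k) * per ρ F - per ρ (conv (B.V2h k) F)) ≤ ε * ‖F‖
  sm : (d : ℝ) * 2 ^ k * ρ ≤ ε

theorem exists_err (hm : 1 ≤ m) (k : ℕ) {ε : ℝ} (hε : 0 < ε) :
    ∃ ρ₀ : ℝ, 0 < ρ₀ ∧ ρ₀ ≤ 1 ∧ ∀ ρ : ℝ, 0 < ρ → ρ ≤ ρ₀ → Err B k ρ ε := by
  obtain ⟨r₁, hr₁, h₁⟩ := per_conv (B.V1h k) ε hε
  obtain ⟨r₂, hr₂, h₂⟩ := per_conv (B.V2h k) ε hε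
  have hr₃ : 0 < ε / ((d : ℝ) * 2 ^ k + 1) := by positivity
  have hev : ∀ᶠ ρ in 𝓝[>] (0 : ℝ), Err B k ρ ε := by
    filter_upwards [ev_small, (app_N B k).exists_le hε, (app_V1 B hm k).exists_le hε,
      (app_V2 B k).exists_le hε, Ioc_mem_nhdsGT hr₁, Ioc_mem_nhdsGT hr₂, Ioc_mem_nhdsGT hr₃]
      with ρ a0 a1 a2 a3 a4 a5 a6
    refine ⟨a0.1, a0.2, a1, a2, a3, h₁ ρ a4.1 a4.2, h₂ ρ a5.1 a5.2, ?_⟩
    have a7 := a6.2
    rw [le_div_iff₀ (by positivity)] at a7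
    nlinarith [a0.1]
  obtain ⟨u, hu, hsub⟩ := mem_nhdsGT_iff_exists_Ioc_subset.1 hev
  refine ⟨min u 1, lt_min hu zero_lt_one, min_le_right _ _, fun ρ h0 h1 => ?_⟩
  exact hsub ⟨h0, h1.trans (min_le_left _ _)⟩

variable {B}

theorem Err.lap {ρ ε : ℝ} (h : Err B k ρ ε) (W : XW d (k + 1)) :
    nrm ρ k (lapErr ρ W) ≤ ε * ‖W‖ :=
  (nrm_lapErr h.pos h.le_one W).trans (mul_le_mul_of_nonneg_right h.sm (norm_nonneg _))

theorem Err.nonneg {ρ ε : ℝ} (h : Err B k ρ ε) : 0 ≤ ε :=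
  (nrm_nonneg h.pos.le _ _).trans h.eN

end Vale.Agent.P139Z.Step
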