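import Vale.Agent.P139Z.Defs

/-!
Block STEP, auxiliary file: integral forms of the Gronwall inequality.
-/

open Set Filter Topology MeasureTheory

namespace Vale.Agent.P139Z.Step

theorem gronwall_cont {f : ℝ → ℝ} {τ a K : ℝ} (hK : 0 ≤ K) (hf : Continuous f)
    (h : ∀ s ∈ Icc 0 τ, f s ≤ a + ∫ σ in (0 : ℝ)..s, K * f σ) :
    ∀ s ∈ Icc 0 τ, f s ≤ a * Real.exp (K * s) := by
  intro s hs
  have hKf : Continuous fun σ => K * f σ := continuous_const.mul hf
  set F : ℝ → ℝ := fun t => a + ∫ σ in (0 : ℝ)..t, K * f σ with hF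
  have hFd : ∀ t, HasDerivAt F (K * f t) t := fun t =>
    (intervalIntegral.integral_hasDerivAt_right (hKf.intervalIntegrable _ _)
      (hKf.stronglyMeasurableAtFilter _ _) hKf.continuousAt).const_add a
  set G : ℝ → ℝ := fun t => Real.exp (-(K * t)) * F t with hG
  have hGd : ∀ t, HasDerivAt G (Real.exp (-(K * t)) * (K * (f t - F t))) t := by
    intro t
    have h1 : HasDerivAt (fun t => Real.exp (-(K * t))) (Real.exp (-(K * t)) * (-(K * 1))) t :=
      (((hasDerivAt_id t).const_mul K).neg).exp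
    have h2 := h1.mul (hFd t)
    refine h2.congr_deriv ?_
    ring
  have hanti : AntitoneOn G (Icc 0 τ) := by
    refine antitoneOn_of_deriv_nonpos (convex_Icc 0 τ)
      (fun t _ => (hGd t).continuousAt.continuousWithinAt)
      (fun t _ => (hGd t).differentiableAt.differentiableWithinAt) ?_
    intro t ht
    rw [(hGd t).deriv]
    have ht' : t ∈ Icc 0 τ := interior_subset ht
    have h3 : f t - F t ≤ 0 := sub_nonpos.2 (h t ht')
    exact mul_nonpos_of_nonneg_of_nonpos (Real.exp_pos _).le (mul_nonpos_of_nonneg_of_nonpos hK h3)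
  have h0 : (0 : ℝ) ∈ Icc 0 τ := ⟨le_rfl, hs.1.trans hs.2⟩
  have h4 : G s ≤ G 0 := hanti h0 hs hs.1
  have h5 : G 0 = a := by simp [hG, hF]
  have h6 : F s = Real.exp (K * s) * G s := by
    simp only [hG]
    rw [← mul_assoc, ← Real.exp_add]
    simp
  have h7 : F s ≤ a * Real.exp (K * s) := by
    rw [h6, mul_comm a]
    exact mul_le_mul_of_nonneg_left (h5 ▸ h4) (Real.exp_pos _).le
  exact (h s hs).trans h7

/-- Integral form of the Gronwall inequality. -/
theorem gronwall_int {f : ℝ → ℝ} {τ a K : ℝ} (hK : 0 ≤ K) (hf : ContinuousOn f (Icc 0 τ))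
    (h : ∀ s ∈ Icc 0 τ, f s ≤ a + ∫ σ in (0 : ℝ)..s, K * f σ) :
    ∀ s ∈ Icc 0 τ, f s ≤ a * Real.exp (K * s) := by
  intro s hs
  have hτ : (0 : ℝ) ≤ τ := hs.1.trans hs.2
  set g : ℝ → ℝ := fun t => f (max 0 (min t τ)) with hg
  have hmem : ∀ t, max 0 (min t τ) ∈ Icc 0 τ := fun t =>
    ⟨le_max_left _ _, max_le hτ (min_le_right _ _)⟩
  have hgc : Continuous g :=
    hf.comp_continuous (continuous_const.max (continuous_id.min continuous_const)) hmem
  have heq : ∀ t ∈ Icc 0 τ, g t = f t := by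
    intro t ht
    simp only [hg]
    rw [min_eq_left ht.2, max_eq_right ht.1]
  rw [← heq s hs]
  refine gronwall_cont hK hgc (τ := τ) ?_ s hs
  intro t ht
  rw [heq t ht]
  refine (h t ht).trans (le_of_eq ?_)
  congr 1
  refine intervalIntegral.integral_congr fun σ hσ => ?_
  rw [uIcc_of_le ht.1] at hσ
  rw [heq σ ⟨hσ.1, hσ.2.trans ht.2⟩]

theorem intInt {f : ℝ → ℝ} {τ s : ℝ} (hf : ContinuousOn f (Icc 0 τ)) (hs : s ∈ Icc 0 τ) :
    IntervalIntegrable f volume 0 s :=
  (hf.mono (by rw [uIcc_of_le hs.1]; exact Icc_subset_Icc_right hs.2)).intervalIntegrable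

/-- Gronwall inequality with a source term. -/
theorem gronwall_src {f g : ℝ → ℝ} {τ a K γ : ℝ} (hK : 0 ≤ K) (hγ : 0 ≤ γ) (ha : 0 ≤ a)
    (hf : ContinuousOn f (Icc 0 τ)) (hg : ContinuousOn g (Icc 0 τ))
    (h : ∀ s ∈ Icc 0 τ, f s ≤ a + ∫ σ in (0 : ℝ)..s, g σ)
    (hb : ∀ s ∈ Icc 0 τ, g s ≤ K * f s + γ) :
    ∀ s ∈ Icc 0 τ, f s ≤ (a + γ * τ) * Real.exp (K * τ) := by
  intro s hs
  have hτ : (0 : ℝ) ≤ τ := hs.1.trans hs.2
  have h1 := gronwall_int (a := a + γ * τ) hK hf ?_ s hs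
  · refine h1.trans (mul_le_mul_of_nonneg_left ?_ (by positivity))
    exact Real.exp_le_exp.2 (mul_le_mul_of_nonneg_left hs.2 hK)
  · intro t ht
    have hKf : ContinuousOn (fun σ => K * f σ) (Icc 0 τ) := continuousOn_const.mul hf
    have h2 : ∫ σ in (0 : ℝ)..t, g σ ≤ ∫ σ in (0 : ℝ)..t, (K * f σ + γ) :=
      intervalIntegral.integral_mono_on ht.1 (intInt hg ht)
        (intInt (hKf.add continuousOn_const) ht) fun σ hσ => hb σ ⟨hσ.1, hσ.2.trans ht.2⟩
    rw [intervalIntegral.integral_add (intInt hKf ht) (intInt continuousOn_const ht)] at h2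
    simp only [intervalIntegral.integral_const, sub_zero, smul_eq_mul] at h2
    have h3 : t * γ ≤ γ * τ := by rw [mul_comm]; exact mul_le_mul_of_nonneg_left ht.2 hγ
    linarith [h t ht]

/-- Gronwall inequality inside a bootstrap. -/
theorem gronwall_boot {f g : ℝ → ℝ} {τ a K γ : ℝ} (hK : 0 ≤ K) (hγ : 0 ≤ γ) (ha : 0 ≤ a)
    (hτ : 0 ≤ τ) (hf : ContinuousOn f (Icc 0 τ)) (hg : ContinuousOn g (Icc 0 τ))
    (h : ∀ s ∈ Icc 0 τ, f s ≤ a + ∫ σ in (0 : ℝ)..s, g σ)
    (hb : ∀ s ∈ Icc 0 τ, f s ≤ 1 → g s ≤ K * f s + γ)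
    (hsmall : (a + γ * τ) * Real.exp (K * τ) < 1) :
    ∀ s ∈ Icc 0 τ, f s ≤ (a + γ * τ) * Real.exp (K * τ) := by
  have key : ∀ t ∈ Icc 0 τ, (∀ s ∈ Icc 0 t, f s ≤ 1) → f t ≤ (a + γ * τ) * Real.exp (K * τ) := by
    intro t ht hle
    have hsub : Icc 0 t ⊆ Icc 0 τ := Icc_subset_Icc_right ht.2
    have h1 := gronwall_src hK hγ ha (hf.mono hsub) (hg.mono hsub) (fun s hs => h s (hsub hs))
      (fun s hs => hb s (hsub hs) (hle s hs)) t ⟨ht.1, le_rfl⟩
    refine h1.trans (mul_le_mul ?_ ?_ (Real.exp_pos _).le (by positivity))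
    · have := mul_le_mul_of_nonneg_left ht.2 hγ
      linarith
    · exact Real.exp_le_exp.2 (mul_le_mul_of_nonneg_left ht.2 hK)
  have h0 : f 0 < 1 := by
    have h1 := h 0 ⟨le_rfl, hτ⟩
    simp only [intervalIntegral.integral_same, add_zero] at h1
    have h2 : 1 ≤ Real.exp (K * τ) := Real.one_le_exp (by positivity)
    have h3 : 0 ≤ γ * τ := by positivity
    nlinarith
  have hall := Vale.Agent.P139.continuity_bootstrap (f := f) (g := fun _ => 0) (T := τ) (A := 1)
    (B := 1) hf continuousOn_const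
    (fun t ht hle => ⟨(key t ht fun s hs => (hle s hs).1).trans_lt hsmall, zero_lt_one⟩)
    ⟨h0, zero_lt_one⟩
  intro s hs
  exact key s hs fun t ht => (hall t ⟨ht.1, ht.2.trans hs.2⟩).1.le

/-- Gronwall inequality with an exponentially decaying kernel. -/
theorem gronwall_gain {f : ℝ → ℝ} {τ a D K c : ℝ} (hK : 0 ≤ K) (hc : 0 ≤ c) (hD : 0 ≤ D)
    (hτ : 0 ≤ τ) (hf : ContinuousOn f (Icc 0 τ))
    (h : ∀ s ∈ Icc 0 τ, f s ≤ Real.exp (-c * s) * a + D
      + ∫ σ in (0 : ℝ)..s, Real.exp (-c * (s - σ)) * (K * f σ)) :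
    f τ ≤ Real.exp (-(c - K) * τ) * a + D * Real.exp (K * τ) := by
  have hy : ContinuousOn (fun s => Real.exp (c * s) * f s) (Icc 0 τ) :=
    (Real.continuous_exp.comp (continuous_const.mul continuous_id)).continuousOn.mul hf
  have h1 := gronwall_int (a := a + D * Real.exp (c * τ)) hK hy ?_ τ ⟨hτ, le_rfl⟩
  · have h2 : f τ = Real.exp (-c * τ) * (Real.exp (c * τ) * f τ) := by
      rw [← mul_assoc, ← Real.exp_add]; simp
    rw [h2]
    refine (mul_le_mul_of_nonneg_left h1 (Real.exp_pos _).le).trans (le_of_eq ?_)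
    have h3 : Real.exp (-(c - K) * τ) = Real.exp (-c * τ) * Real.exp (K * τ) := by
      rw [← Real.exp_add]; congr 1; ring
    have h4 : Real.exp (-c * τ) * Real.exp (c * τ) = 1 := by
      rw [← Real.exp_add]; simp
    rw [h3]
    linear_combination (D * Real.exp (K * τ)) * h4
  · intro s hs
    have h2 := mul_le_mul_of_nonneg_left (h s hs) (Real.exp_pos (c * s)).le
    have h3 : Real.exp (c * s) * ∫ σ in (0 : ℝ)..s, Real.exp (-c * (s - σ)) * (K * f σ)
        = ∫ σ in (0 : ℝ)..s, K * (Real.exp (c * σ) * f σ) := by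
      rw [← intervalIntegral.integral_const_mul]
      refine intervalIntegral.integral_congr fun σ _ => ?_
      have : Real.exp (c * s) * Real.exp (-c * (s - σ)) = Real.exp (c * σ) := by
        rw [← Real.exp_add]; congr 1; ring
      rw [← this]; ring
    have h4 : Real.exp (c * s) * Real.exp (-c * s) = 1 := by
      rw [← Real.exp_add]; simp
    have h5 : Real.exp (c * s) * D ≤ D * Real.exp (c * τ) := by
      rw [mul_comm]
      exact mul_le_mul_of_nonneg_left
        (Real.exp_le_exp.2 (mul_le_mul_of_nonneg_left hs.2 hc)) hD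
    rw [mul_add, mul_add, h3, ← mul_assoc, h4, one_mul] at h2
    linarith

end Vale.Agent.P139Z.Step
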