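import Vale.Agent.P139Z.Step.Approx
import Vale.Agent.P139Z.Step.Gron

/-!
Block STEP, auxiliary file: the two energy estimates.
-/

open Set Filter Topology MeasureTheory Complex
open scoped NNReal ENNReal ComplexConjugate ContDiff

namespace Vale.Agent.P139Z.Step

open Vale.Agent.P139 Vale.Agent.P139.A Vale.Agent.P139.A.WA XW

variable {d k m : ℕ}

theorem nrm_negI (ρ : ℝ) (j : ℕ) (a : WA d k) : nrm ρ j ((-I) • a) = nrm ρ j a := by
  rw [nrm_smul, norm_neg, Complex.norm_I, one_mul]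

theorem Lam_re_nonneg (B : Bg d m) : 0 ≤ B.Λ.re := by
  rw [B.Λ_re]; positivity

/-- The distance from the profile grows at most exponentially. -/
theorem w_bound (B : Bg d m) (hk : 2 ≤ k) {τ : ℝ} (hτ : 0 ≤ τ) : ∃ A : ℝ, 1 ≤ A ∧
    ∀ (lam ε δ : ℝ) (Us : ℝ → WA d k), 0 < lam → 0 ≤ δ →
      (∀ s ∈ Icc 0 τ, Err B k (rho lam s) ε) →
      Lin B.Λ lam τ Us (fun s => (-I) • nl m (Us s)) →
      nrm lam k (Us 0 - per lam (B.Qh k)) ≤ δ → A * (δ + ε) < 1 →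
      ∀ s ∈ Icc 0 τ, nrm (rho lam s) k (Us s - per (rho lam s) (B.Qh k)) ≤ A * (δ + ε) := by
  obtain ⟨C, hC, hCb⟩ := nrm_nl_sub (d := d) (k := k) m (2 ^ k * ‖B.Qh k‖ + 1)
  have hN : 0 ≤ ‖B.Qh (k + 1)‖ := norm_nonneg _
  have hE : 1 ≤ Real.exp (C * τ) := Real.one_le_exp (by positivity)
  refine ⟨(1 + (1 + ‖B.Qh (k + 1)‖) * τ) * Real.exp (C * τ), ?_, ?_⟩
  · have : 0 ≤ (1 + ‖B.Qh (k + 1)‖) * τ := by positivity
    nlinarith
  intro lam ε δ Us hlam hδ hErr hUs h0 hsmall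
  have hε : 0 ≤ ε := (hErr 0 ⟨le_rfl, hτ⟩).nonneg
  have hL := hUs.sub (lin_q B hk hlam τ)
  have hle : (δ + ε * (1 + ‖B.Qh (k + 1)‖) * τ) * Real.exp (C * τ)
      ≤ (1 + (1 + ‖B.Qh (k + 1)‖) * τ) * Real.exp (C * τ) * (δ + ε) := by
    rw [mul_right_comm _ (Real.exp (C * τ))]
    refine mul_le_mul_of_nonneg_right ?_ (Real.exp_pos _).le
    have : 0 ≤ (1 + ‖B.Qh (k + 1)‖) * τ * δ := by positivity
    nlinarith
  intro s hs
  refine (gronwall_boot (a := δ) (γ := ε * (1 + ‖B.Qh (k + 1)‖)) hC (by positivity) hδ hτ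
    (continuousOn_nrm_rho hlam.le le_rfl hL.cz) (continuousOn_nrm_rho hlam.le le_rfl hL.cg)
    (fun t ht => ?_) (fun t ht h1 => ?_) (hle.trans_lt hsmall) s hs).trans hle
  · refine (hL.plain hlam.le (Lam_re_nonneg B) le_rfl ht).trans (add_le_add ?_ le_rfl)
    rw [rho_zero]
    exact h0
  · have he := hErr t ht
    have hp := he.pos.le
    have e : (-I) • nl m (Us t) - ((-I) • lapErr (rho lam t) (B.Qh (k + 1))
        + per (rho lam t) ((-I) • B.Nh k))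
        = (-I) • ((nl m (Us t) - nl m (per (rho lam t) (B.Qh k)))
          + (nl m (per (rho lam t) (B.Qh k)) - per (rho lam t) (B.Nh k))
          - lapErr (rho lam t) (B.Qh (k + 1))) := by
      rw [map_smul]
      module
    rw [e, nrm_negI]
    have hq := nrm_per_le he.pos he.le_one (B.Qh k)
    have hU : nrm (rho lam t) k (Us t) ≤ 2 ^ k * ‖B.Qh k‖ + 1 := by
      have e2 : Us t = per (rho lam t) (B.Qh k) + (Us t - per (rho lam t) (B.Qh k)) := by abel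
      rw [e2]
      exact (nrm_add_le hp le_rfl _ _).trans (add_le_add hq h1)
    have h2 := hCb _ hp k le_rfl _ _ hU (hq.trans (le_add_of_nonneg_right zero_le_one))
    have h3 := he.lap (B.Qh (k + 1))
    have h4 := he.eN
    have h5 := (nrm_sub_le hp le_rfl _ (lapErr (rho lam t) (B.Qh (k + 1)))).trans
      (add_le_add ((nrm_add_le hp le_rfl _ _).trans (add_le_add h2 h4)) h3)
    refine h5.trans (le_of_eq ?_)
    ring

theorem gain_integrand {c s σ K0 K1 E c1 γ n h g1 g2 p q : ℝ} (hc : 0 ≤ c) (hσ : σ ≤ s)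
    (hK1 : 0 ≤ K1) (hγ : 0 ≤ γ) (hγE : γ ≤ E) (hp : 0 ≤ p) (hq : 0 ≤ q) (hh0 : 0 ≤ h)
    (hh : h ≤ c1 * E) (h1 : g1 ≤ K1 * h + γ) (h2 : g2 ≤ K0 * n + q * K1 * h + γ) :
    Real.exp (-c * (s - σ)) * g2 + p * g1
      ≤ Real.exp (-c * (s - σ)) * (K0 * n) + ((q * K1 * c1 + 1) + p * (K1 * c1 + 1)) * E := by
  have he : Real.exp (-c * (s - σ)) ≤ 1 :=
    Real.exp_le_one_iff.2 (by nlinarith)
  have he0 := (Real.exp_pos (-c * (s - σ))).le
  have h3 : K1 * h ≤ K1 * (c1 * E) := mul_le_mul_of_nonneg_left hh hK1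
  have h4 : p * g1 ≤ p * ((K1 * c1 + 1) * E) :=
    mul_le_mul_of_nonneg_left (by nlinarith) hp
  have h5 : q * (K1 * h) ≤ q * (K1 * (c1 * E)) := mul_le_mul_of_nonneg_left h3 hq
  have h6 : 0 ≤ q * K1 * h + γ := by positivity
  have h7 := mul_le_mul_of_nonneg_left h2 he0
  have h8 : Real.exp (-c * (s - σ)) * (q * K1 * h + γ) ≤ q * K1 * h + γ :=
    mul_le_of_le_one_left h6 he
  nlinarith

/-- Decay of the high-frequency part. -/
theorem z_bound {K0 K1 τ : ℝ} (hK0 : 0 ≤ K0) (hK1 : 0 ≤ K1) (hτ : 0 ≤ τ)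
    (hkK : K0 + 1 ≤ k / 4) : ∃ C : ℝ, 0 ≤ C ∧ ∀ (Λ : ℂ) (lam δ δ₁ γ : ℝ) (z g : ℝ → WA d k),
      0 ≤ Λ.re → 0 ≤ lam → 0 ≤ γ → Lin Λ lam τ z g → nrm lam k (z 0) ≤ δ →
      nrm lam (k - 1) (z 0) ≤ δ₁ →
      (∀ s ∈ Icc 0 τ, nrm (rho lam s) (k - 1) (g s) ≤ K1 * nrm (rho lam s) (k - 1) (z s) + γ) →
      (∀ s ∈ Icc 0 τ, nrm (rho lam s) k (g s) ≤ K0 * nrm (rho lam s) k (z s)
        + k * K1 * nrm (rho lam s) (k - 1) (z s) + γ) →
      nrm (rho lam τ) k (z τ) ≤ Real.exp (-τ) * δ + C * (δ₁ + γ) := by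
  obtain ⟨c1, hc1⟩ : ∃ c1, c1 = (1 + τ) * Real.exp (K1 * τ) := ⟨_, rfl⟩
  have hc10 : 0 ≤ c1 := by rw [hc1]; positivity
  obtain ⟨c2, hc2⟩ : ∃ c2 : ℝ, c2 = (k * K1 * c1 + 1) + 2 ^ k * (K1 * c1 + 1) := ⟨_, rfl⟩
  have hc20 : 0 ≤ c2 := by rw [hc2]; positivity
  refine ⟨(2 ^ k + τ * c2) * Real.exp (K0 * τ), by positivity, ?_⟩
  intro Λ lam δ δ₁ γ z g hΛ hlam hγ hL h0 h1 hg1 hg2
  have hr : ∀ s, 0 ≤ rho lam s := fun s => mul_nonneg hlam (Real.exp_pos _).le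
  have hδ : 0 ≤ δ := (nrm_nonneg hlam _ _).trans h0
  have hδ₁ : 0 ≤ δ₁ := (nrm_nonneg hlam _ _).trans h1
  have hk1 : k - 1 ≤ k := Nat.sub_le k 1
  have cz1 := continuousOn_nrm_rho hlam hk1 hL.cz
  have cg1 := continuousOn_nrm_rho hlam hk1 hL.cg
  have cz2 := continuousOn_nrm_rho hlam le_rfl hL.cz
  have cg2 := continuousOn_nrm_rho hlam le_rfl hL.cg
  have hH : ∀ s ∈ Icc 0 τ, nrm (rho lam s) (k - 1) (z s) ≤ c1 * (δ₁ + γ) := by
    intro s hs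
    refine (gronwall_src (a := δ₁) hK1 hγ hδ₁ cz1 cg1 (fun t ht => ?_) hg1 s hs).trans ?_
    · exact (hL.plain hlam hΛ hk1 ht).trans (add_le_add h1 le_rfl)
    · rw [hc1, mul_right_comm]
      refine mul_le_mul_of_nonneg_right ?_ (Real.exp_pos _).le
      have : 0 ≤ τ * δ₁ := by positivity
      nlinarith
  have hc : (0 : ℝ) ≤ k / 4 := by positivity
  have hG := gronwall_gain (a := δ) (D := (2 ^ k + τ * c2) * (δ₁ + γ)) hK0 hc (by positivity) hτ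
    cz2 ?_
  · refine hG.trans (add_le_add ?_ (le_of_eq (by ring)))
    refine mul_le_mul_of_nonneg_right (Real.exp_le_exp.2 ?_) hδ
    nlinarith
  · intro s hs
    refine (hL.gain hlam hΛ hs).trans ?_
    have ce : ContinuousOn (fun σ => Real.exp (-((k : ℝ) / 4) * (s - σ))) (Icc 0 τ) := by
      fun_prop
    have c3 : ContinuousOn (fun σ => Real.exp (-((k : ℝ) / 4) * (s - σ))
        * (K0 * nrm (rho lam σ) k (z σ))) (Icc 0 τ) := ce.mul (continuousOn_const.mul cz2)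
    have h2 : ∫ σ in (0 : ℝ)..s, (Real.exp (-((k : ℝ) / 4) * (s - σ)) * nrm (rho lam σ) k (g σ)
        + 2 ^ k * nrm (rho lam σ) (k - 1) (g σ))
        ≤ ∫ σ in (0 : ℝ)..s, (Real.exp (-((k : ℝ) / 4) * (s - σ))
          * (K0 * nrm (rho lam σ) k (z σ)) + c2 * (δ₁ + γ)) := by
      refine intervalIntegral.integral_mono_on hs.1
        (intInt ((ce.mul cg2).add (continuousOn_const.mul cg1)) hs)
        (intInt (c3.add continuousOn_const) hs) fun σ hσ => ?_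
      have hσ' : σ ∈ Icc 0 τ := ⟨hσ.1, hσ.2.trans hs.2⟩
      rw [hc2]
      exact gain_integrand hc hσ.2 hK1 hγ (le_add_of_nonneg_left hδ₁) (by positivity)
        (Nat.cast_nonneg k) (nrm_nonneg (hr σ) _ _) (hH σ hσ') (hg1 σ hσ') (hg2 σ hσ')
    rw [intervalIntegral.integral_add (intInt c3 hs) (intInt continuousOn_const hs)] at h2
    simp only [intervalIntegral.integral_const, sub_zero, smul_eq_mul] at h2
    have h3 : s * (c2 * (δ₁ + γ)) ≤ τ * (c2 * (δ₁ + γ)) :=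
      mul_le_mul_of_nonneg_right hs.2 (by positivity)
    have h4 : Real.exp (-((k : ℝ) / 4) * s) * nrm lam k (z 0)
        ≤ Real.exp (-((k : ℝ) / 4) * s) * δ := mul_le_mul_of_nonneg_left h0 (Real.exp_pos _).le
    have h5 : (2 : ℝ) ^ k * nrm lam (k - 1) (z 0) ≤ 2 ^ k * (δ₁ + γ) :=
      mul_le_mul_of_nonneg_left (h1.trans (le_add_of_nonneg_right hγ)) (by positivity)
    nlinarith

end Vale.Agent.P139Z.Step
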