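import Vale.Agent.P139Z.Step.Src

/-!
Block STEP, auxiliary file: absorbing the symmetry modes by the symmetry group.
-/

open Set Filter Topology MeasureTheory Complex
open scoped NNReal ENNReal ComplexConjugate ContDiff

namespace Vale.Agent.P139Z.Step

open Vale.Agent.P139 Vale.Agent.P139.A Vale.Agent.P139.A.WA XW

variable {d k m : ℕ}

theorem exp_le_two {x : ℝ} (hx : x ≤ 1 / 2) : Real.exp x ≤ 2 := by
  have h := Real.exp_bound_div_one_sub_of_interval (x := 1 / 2) (by norm_num) (by norm_num)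
  refine (Real.exp_le_exp.2 hx).trans (h.trans (le_of_eq ?_))
  norm_num

theorem norm_phase' (θ : ℝ) : ‖cexp (-I * θ)‖ = 1 := by
  rw [Complex.norm_exp]
  simp

theorem norm_dil_le (B : Bg d m) (hm : 1 ≤ m) {μ : ℝ} (hμ : |μ| ≤ 1) :
    ‖cexp (-B.Λ * μ)‖ ≤ 2 := by
  rw [Complex.norm_exp]
  refine exp_le_two ?_
  have h1 : (-B.Λ * (μ : ℂ)).re = -(B.Λ.re * μ) := by simp
  have hm' : (1 : ℝ) ≤ m := by exact_mod_cast hm
  have h2 : B.Λ.re ≤ 1 / 2 := by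
    rw [B.Λ_re]
    exact one_div_le_one_div_of_le (by norm_num) (by linarith)
  have h3 := Lam_re_nonneg B
  have h4 := abs_le.1 hμ
  rw [h1]
  nlinarith

theorem final_identity (S : WA d k →L[ℂ] WA d k) (w c : ℂ) (u pQ pX pY pM a b e : WA d k)
    (hY : pY = pQ + pM) (ha : a = c • pY) :
    w • S (c • u) - e = w • (S a - b) + (w • b - e)
      + w • S (c • ((pX - pM) + (u - pQ - pX))) := by
  have h : c • u = a + c • ((pX - pM) + (u - pQ - pX)) := by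
    rw [ha, hY, ← smul_add]
    congr 1
    abel
  rw [h, map_add]
  module

theorem final_mod (B : Bg d m) (hm : 1 ≤ m) {ρ ε κ a b θ μ : ℝ} {y : Eu d} {X : XW d k}
    {u : WA d k} (hρ : 0 < ρ) (hρ1 : ρ ≤ 1 / 2) (hsm : (d : ℝ) * 2 ^ k * ρ ≤ ε)
    (hpar : |θ| + |μ| + ‖y‖ ≤ 1)
    (hmod : ‖cexp (-I * θ) • transl (-y) (T B.Λ 0 μ (B.Qh k + B.mode k θ μ y)) - B.Qh k‖ ≤ κ)
    (hκ : κ ≤ 1) (hX : ‖X - B.mode k θ μ y‖ ≤ a)
    (hz : nrm ρ k (u - per ρ (B.Qh k) - per ρ X) ≤ b) :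
    nrm (ρ * Real.exp (-μ / 2)) k (cexp (-I * θ) •
        shift (fun i => ρ * Real.exp (-μ / 2) * (-y) i) (cexp (-B.Λ * μ) • u)
        - per (ρ * Real.exp (-μ / 2)) (B.Qh k))
      ≤ 2 * ε * (‖B.Qh k‖ + 1) + 2 ^ k * κ + 2 * 2 ^ k * (2 ^ k * a + b) := by
  have hθ0 := abs_nonneg θ
  have hμ0 := abs_nonneg μ
  have hy0 := norm_nonneg y
  have hμ : |μ| ≤ 1 := by linarith
  have hy : ‖y‖ ≤ 1 := by linarith
  have he2 : Real.exp (-μ / 2) ≤ 2 := exp_le_two (by linarith [(abs_le.1 hμ).1])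
  obtain ⟨r, hr⟩ : ∃ r, r = ρ * Real.exp (-μ / 2) := ⟨_, rfl⟩
  have hr0 : 0 < r := by rw [hr]; positivity
  have hr2 : r ≤ 2 * ρ := by rw [hr, mul_comm]; exact mul_le_mul_of_nonneg_right he2 hρ.le
  have hr1 : r ≤ 1 := by linarith
  have hε : 0 ≤ ε := le_trans (by positivity) hsm
  obtain ⟨Y, hY⟩ : ∃ Y, Y = T B.Λ 0 μ (B.Qh k + B.mode k θ μ y) := ⟨_, rfl⟩
  have hdil := per_T_dil hρ B.Λ μ (B.Qh k + B.mode k θ μ y)
  rw [← hr, ← hY] at hdil
  rw [← hY] at hmod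
  rw [← hr, final_identity _ _ _ u (per ρ (B.Qh k)) (per ρ X) _ (per ρ (B.mode k θ μ y)) _
    (per r (transl (-y) Y)) _ (map_add _ _ _) hdil]
  have hYn : ‖Y‖ ≤ ‖B.Qh k‖ + 1 := by
    have h1 : ‖cexp (-I * θ) • transl (-y) Y‖ = ‖Y‖ := by
      rw [norm_smul, norm_phase', one_mul, norm_transl]
    have h2 := norm_sub_norm_le (cexp (-I * θ) • transl (-y) Y) (B.Qh k)
    linarith
  have t1 : nrm r k (cexp (-I * θ) • (shift (fun i => r * (-y) i) (per r Y)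
      - per r (transl (-y) Y))) ≤ 2 * ε * (‖B.Qh k‖ + 1) := by
    rw [nrm_smul, norm_phase', one_mul]
    refine (nrm_shift_per hr0 hr1 (-y) Y).trans ?_
    rw [norm_neg]
    refine mul_le_mul ?_ hYn (norm_nonneg _) (by positivity)
    have h1 : (d : ℝ) * 2 ^ k * r ≤ (d : ℝ) * 2 ^ k * (2 * ρ) :=
      mul_le_mul_of_nonneg_left hr2 (by positivity)
    have h2 : (d : ℝ) * 2 ^ k * r * ‖y‖ ≤ (d : ℝ) * 2 ^ k * r :=
      mul_le_of_le_one_right (by positivity) hy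
    linarith
  have t2 : nrm r k (cexp (-I * θ) • per r (transl (-y) Y) - per r (B.Qh k)) ≤ 2 ^ k * κ := by
    rw [← map_smul, ← map_sub]
    exact (nrm_per_le hr0 hr1 _).trans (mul_le_mul_of_nonneg_left hmod (by positivity))
  have t3 : nrm r k (cexp (-I * θ) • shift (fun i => r * (-y) i) (cexp (-B.Λ * μ) •
      ((per ρ X - per ρ (B.mode k θ μ y)) + (u - per ρ (B.Qh k) - per ρ X))))
      ≤ 2 * 2 ^ k * (2 ^ k * a + b) := by
    rw [nrm_smul, norm_phase', one_mul, nrm_shift, nrm_smul, mul_assoc]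
    refine mul_le_mul (norm_dil_le B hm hμ) ?_ (nrm_nonneg hr0.le _ _) zero_le_two
    refine (nrm_scale_le hρ.le hr0.le one_le_two hr2 le_rfl _).trans
      (mul_le_mul_of_nonneg_left ?_ (by positivity))
    refine (nrm_add_le hρ.le le_rfl _ _).trans (add_le_add ?_ hz)
    rw [← map_sub]
    exact (nrm_per_le hρ (by linarith) _).trans (mul_le_mul_of_nonneg_left hX (by positivity))
  exact (nrm_add_le hr0.le le_rfl _ _).trans
    (add_le_add ((nrm_add_le hr0.le le_rfl _ _).trans (add_le_add t1 t2)) t3)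

theorem amp_dil (Λ : ℂ) {lam : ℝ} (h : 0 < lam) (τ μ : ℝ) :
    cexp (2 * Λ * Real.log (rho lam τ * Real.exp (-μ / 2))) = cexp (-Λ * μ) * amp Λ lam τ := by
  unfold amp
  rw [Real.log_mul (rho_pos h τ).ne' (Real.exp_pos _).ne', Real.log_exp, ← Complex.exp_add]
  congr 1
  push_cast
  ring

end Vale.Agent.P139Z.Step
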