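import Vale.Agent.P139Z.Semi
import Vale.Agent.P139Z.Per
import Vale.Agent.P139Z.Energy

/-!
Block STEP, auxiliary file: the equations in self-similar variables on the torus.
-/

open Set Filter Topology MeasureTheory Complex
open scoped NNReal ENNReal ComplexConjugate ContDiff

namespace Vale.Agent.P139Z.Step

open Vale.Agent.P139 Vale.Agent.P139.A Vale.Agent.P139.A.WA XW

variable {d k m : ℕ}

/-- The scale at self-similar time `s`. -/
noncomputable def rho (lam s : ℝ) : ℝ := lam * Real.exp (-s / 2)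

theorem rho_pos {lam : ℝ} (h : 0 < lam) (s : ℝ) : 0 < rho lam s := mul_pos h (Real.exp_pos _)

theorem rho_zero (lam : ℝ) : rho lam 0 = lam := by simp [rho]

theorem rho_le {lam s : ℝ} (h : 0 ≤ lam) (hs : 0 ≤ s) : rho lam s ≤ lam :=
  mul_le_of_le_one_right h (Real.exp_le_one_iff.2 (by linarith))

theorem continuous_rho (lam : ℝ) : Continuous (rho lam) := by
  unfold rho; fun_prop

theorem rho_sq (lam s : ℝ) : rho lam s ^ 2 = lam ^ 2 * Real.exp (-s) := by
  unfold rho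
  rw [mul_pow, ← Real.exp_nat_mul]
  congr 2
  push_cast
  ring

theorem log_rho {lam : ℝ} (h : 0 < lam) (s : ℝ) : Real.log (rho lam s) = Real.log lam - s / 2 := by
  unfold rho
  rw [Real.log_mul h.ne' (Real.exp_pos _).ne', Real.log_exp]
  ring

/-- `z` solves the free equation in self-similar variables with source `g`. -/
structure Lin (Λ : ℂ) (lam τ : ℝ) (z g : ℝ → WA d k) : Prop where
  cz : ContinuousOn z (Icc 0 τ)
  cg : ContinuousOn g (Icc 0 τ)
  eqn : ∀ s ∈ Icc 0 τ, ∀ n, HasDerivWithinAt (fun t => coef (z t) n)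
    (-(Λ + I * (rho lam s ^ 2 * sqNorm n : ℝ)) * coef (z s) n + coef (g s) n) (Icc 0 τ) s

theorem Lin.sub {Λ : ℂ} {lam τ : ℝ} {z₁ g₁ z₂ g₂ : ℝ → WA d k} (h₁ : Lin Λ lam τ z₁ g₁)
    (h₂ : Lin Λ lam τ z₂ g₂) : Lin Λ lam τ (fun s => z₁ s - z₂ s) (fun s => g₁ s - g₂ s) where
  cz := h₁.cz.sub h₂.cz
  cg := h₁.cg.sub h₂.cg
  eqn := by
    intro s hs n
    simp only [coef_sub]
    refine ((h₁.eqn s hs n).sub (h₂.eqn s hs n)).congr_deriv ?_
    ring

theorem continuousOn_nrm_rho {lam τ : ℝ} (hlam : 0 ≤ lam) {j : ℕ} (hj : j ≤ k) {z : ℝ → WA d k}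
    (hz : ContinuousOn z (Icc 0 τ)) :
    ContinuousOn (fun s => nrm (rho lam s) j (z s)) (Icc 0 τ) := by
  have h1 : ContinuousOn (fun s => (rho lam s, z s)) (Icc 0 τ) :=
    (continuous_rho lam).continuousOn.prodMk hz
  exact (continuous_nrm hj).comp h1 fun s _ =>
    ⟨mul_nonneg hlam (Real.exp_pos _).le, mem_univ _⟩

theorem Lin.plain {Λ : ℂ} {lam τ : ℝ} {z g : ℝ → WA d k} (h : Lin Λ lam τ z g) (hlam : 0 ≤ lam)
    (hΛ : 0 ≤ Λ.re) {j : ℕ} (hj : j ≤ k) {s : ℝ} (hs : s ∈ Icc 0 τ) :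
    nrm (rho lam s) j (z s) ≤ nrm lam j (z 0) + ∫ σ in (0 : ℝ)..s, nrm (rho lam σ) j (g σ) :=
  energy_plain hlam hΛ h.cz h.cg (fun s n => rho lam s ^ 2 * sqNorm n) h.eqn hj hs

theorem Lin.gain {Λ : ℂ} {lam τ : ℝ} {z g : ℝ → WA d k} (h : Lin Λ lam τ z g) (hlam : 0 ≤ lam)
    (hΛ : 0 ≤ Λ.re) {s : ℝ} (hs : s ∈ Icc 0 τ) :
    nrm (rho lam s) k (z s) ≤ Real.exp (-(k / 4) * s) * nrm lam k (z 0)
      + 2 ^ k * nrm lam (k - 1) (z 0)
      + ∫ σ in (0 : ℝ)..s, (Real.exp (-(k / 4) * (s - σ)) * nrm (rho lam σ) k (g σ)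
        + 2 ^ k * nrm (rho lam σ) (k - 1) (g σ)) :=
  energy_gain hlam hΛ h.cz h.cg (fun s n => rho lam s ^ 2 * sqNorm n) h.eqn hs

/-! ### rescaling of a solution -/

theorem nl_smul (m : ℕ) (c : ℂ) (u : WA d k) :
    nl m (c • u) = ((c * conj c) ^ m * c) • nl m u := by
  unfold nl
  rw [star_smul, smul_mul_smul_comm, smul_pow, smul_mul_smul_comm]
  rfl

theorem continuous_nl (m : ℕ) : Continuous fun u : WA d k => nl m u := by
  unfold nl
  exact ((continuous_id.mul continuous_star).pow m).mul continuous_id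

/-- Physical time at self-similar time `s`. -/
noncomputable def tim (lam s : ℝ) : ℝ := lam ^ 2 - rho lam s ^ 2

theorem tim_zero (lam : ℝ) : tim lam 0 = 0 := by simp [tim, rho_zero]

theorem tim_mem {lam s : ℝ} (hs : 0 ≤ s) : tim lam s ∈ Icc 0 (lam ^ 2) := by
  unfold tim
  rw [rho_sq]
  have h1 : Real.exp (-s) ≤ 1 := Real.exp_le_one_iff.2 (by linarith)
  have h2 := Real.exp_pos (-s)
  have h3 := sq_nonneg lam
  constructor <;> nlinarith

theorem hasDerivAt_tim (lam s : ℝ) : HasDerivAt (tim lam) (rho lam s ^ 2) s := by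
  have h : tim lam = fun t => lam ^ 2 - lam ^ 2 * Real.exp (-t) := by
    funext t; unfold tim; rw [rho_sq]
  rw [h, rho_sq]
  have h1 := (((hasDerivAt_id s).neg.exp).const_mul (lam ^ 2)).const_sub (lam ^ 2)
  refine h1.congr_deriv ?_
  simp

/-- The amplitude factor at self-similar time `s`. -/
noncomputable def amp (Λ : ℂ) (lam s : ℝ) : ℂ := cexp (2 * Λ * Real.log (rho lam s))

theorem amp_eq (Λ : ℂ) {lam : ℝ} (h : 0 < lam) (s : ℝ) :
    amp Λ lam s = cexp (2 * Λ * Real.log lam - Λ * s) := by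
  unfold amp
  rw [log_rho h]
  congr 1
  push_cast
  ring

theorem hasDerivAt_amp (Λ : ℂ) {lam : ℝ} (h : 0 < lam) (s : ℝ) :
    HasDerivAt (amp Λ lam) (-Λ * amp Λ lam s) s := by
  have h0 : amp Λ lam = fun t : ℝ => cexp (2 * Λ * Real.log lam - Λ * t) := by
    funext t; exact amp_eq Λ h t
  rw [h0]
  have h1 : HasDerivAt (fun t : ℝ => 2 * Λ * Real.log lam - Λ * (t : ℂ)) (-(Λ * 1)) s :=
    ((Complex.ofRealCLM.hasDerivAt (x := s)).const_mul Λ).const_sub _
  refine h1.cexp.congr_deriv ?_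
  ring

theorem amp_pow {Λ : ℂ} (hm : 1 ≤ m) (hΛ : Λ.re = 1 / (2 * (m : ℝ))) {lam : ℝ} (h : 0 < lam)
    (s : ℝ) : (amp Λ lam s * conj (amp Λ lam s)) ^ m = ((rho lam s ^ 2 : ℝ) : ℂ) := by
  have hm' : (m : ℝ) ≠ 0 := by positivity
  rw [Complex.mul_conj, Complex.normSq_eq_norm_sq, ← Complex.ofReal_pow]
  congr 1
  unfold amp
  rw [Complex.norm_exp, ← pow_mul, ← Real.exp_nat_mul]
  have h1 : (2 * Λ * (Real.log (rho lam s) : ℂ)).re = 2 * Λ.re * Real.log (rho lam s) := by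
    simp
  rw [h1, hΛ]
  have h2 : ((2 * m : ℕ) : ℝ) * (2 * (1 / (2 * (m : ℝ))) * Real.log (rho lam s))
      = (2 : ℕ) * Real.log (rho lam s) := by
    push_cast
    field_simp
  rw [h2, Real.exp_nat_mul, Real.exp_log (rho_pos h s)]

/-- The solution in self-similar variables. -/
noncomputable def resc (Λ : ℂ) (lam : ℝ) (U : ℝ → WA d k) (s : ℝ) : WA d k :=
  amp Λ lam s • U (tim lam s)

theorem lin_resc {Λ : ℂ} (hm : 1 ≤ m) (hΛ : Λ.re = 1 / (2 * (m : ℝ))) {lam : ℝ} (h : 0 < lam)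
    {U : ℝ → WA d k} (hU : IsWSol m (lam ^ 2) U) (τ : ℝ) :
    Lin Λ lam τ (resc Λ lam U) fun s => (-I) • nl m (resc Λ lam U s) := by
  have hmap : MapsTo (tim lam) (Icc 0 τ) (Icc 0 (lam ^ 2)) := fun s hs => tim_mem hs.1
  have hc : ContinuousOn (resc Λ lam U) (Icc 0 τ) := by
    refine ContinuousOn.smul (fun s _ => (hasDerivAt_amp Λ h s).continuousAt.continuousWithinAt) ?_
    exact hU.cont.comp (fun s _ => (hasDerivAt_tim lam s).continuousAt.continuousWithinAt) hmap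
  refine ⟨hc, ((continuous_nl m).comp_continuousOn hc).const_smul (-I), ?_⟩
  intro s hs n
  have h1 := (hU.eqn (tim lam s) (hmap hs) n).scomp s
    (hasDerivAt_tim lam s).hasDerivWithinAt hmap
  have h2 := (hasDerivAt_amp Λ h s).hasDerivWithinAt.mul h1
  have h3 : (fun t => coef (resc Λ lam U t) n)
      = amp Λ lam * ((fun s => coef (U s) n) ∘ tim lam) := by
    funext t
    simp [resc]
  rw [h3]
  refine h2.congr_deriv ?_
  unfold resc
  rw [nl_smul, amp_pow hm hΛ h]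
  simp only [coef_smul, Function.comp, Complex.real_smul]
  push_cast
  ring

/-! ### transfer of solutions on the whole space -/

theorem sq_le (ξ : Fq d) : sq ξ ≤ d * wt 2 ξ := by
  unfold sq wt
  have h1 : ∀ i, ξ i ^ 2 ≤ (1 + ‖ξ‖) ^ 2 := by
    intro i
    have h2 : |ξ i| ≤ ‖ξ‖ := norm_le_pi_norm ξ i
    rw [← sq_abs]
    exact pow_le_pow_left₀ (abs_nonneg _) (by linarith) 2
  calc ∑ i, ξ i ^ 2 ≤ ∑ _i : Fin d, (1 + ‖ξ‖) ^ 2 := Finset.sum_le_sum fun i _ => h1 i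
    _ = d * (1 + ‖ξ‖) ^ 2 := by simp

theorem integrable_sq (hk : 2 ≤ k) (F : XW d k) :
    Integrable fun ξ => (sq ξ : ℂ) * fn F ξ := by
  have h1 := (integrable_wt F hk).norm.const_mul (d : ℝ)
  have hc : Continuous fun ξ : Fq d => (sq ξ : ℂ) := by
    unfold sq; fun_prop
  refine h1.mono' (hc.aestronglyMeasurable.mul (integrable_fn F).aestronglyMeasurable)
    (Eventually.of_forall fun ξ => ?_)
  have h2 : 0 ≤ sq ξ := Finset.sum_nonneg fun i _ => sq_nonneg _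
  have h3 : 0 ≤ wt 2 ξ := by unfold wt; positivity
  rw [norm_mul, norm_mul, Complex.norm_real, Complex.norm_real, Real.norm_of_nonneg h2,
    Real.norm_of_nonneg h3, ← mul_assoc]
  exact mul_le_mul_of_nonneg_right (sq_le ξ) (norm_nonneg _)

theorem int_sq_cell (hk : 2 ≤ k) {ρ : ℝ} (hρ : 0 < ρ) (W : XW d (k + 1)) (n : Lat d) :
    ∫ ξ in cell ρ n, (sq ξ : ℂ) * fn (incl W) ξ
      = coef (lapErr ρ W) n + (ρ ^ 2 * sqNorm n : ℝ) * coef (per ρ (incl W)) n := by
  rw [coef_lapErr hρ, coef_per hρ, ← integral_const_mul]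
  have hae : ∀ᵐ ξ ∂(volume.restrict (cell ρ n)), fn (incl W) ξ = fn W ξ :=
    ae_restrict_of_ae (fn_incl W)
  have h1 : IntegrableOn (fun ξ => (sq ξ : ℂ) * fn (incl W) ξ) (cell ρ n) :=
    (integrable_sq hk (incl W)).integrableOn
  have h2 : IntegrableOn (fun ξ => ((ρ ^ 2 * sqNorm n : ℝ) : ℂ) * fn (incl W) ξ) (cell ρ n) :=
    ((integrable_fn (incl W)).const_mul _).integrableOn
  have h3 : ∫ ξ in cell ρ n, ((sq ξ - ρ ^ 2 * sqNorm n : ℝ) : ℂ) * fn W ξ
      = ∫ ξ in cell ρ n, ((sq ξ : ℂ) * fn (incl W) ξ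
        - ((ρ ^ 2 * sqNorm n : ℝ) : ℂ) * fn (incl W) ξ) := by
    refine integral_congr_ae ?_
    filter_upwards [hae] with ξ hξ
    rw [hξ]
    push_cast
    ring
  rw [h3, integral_sub h1 h2]
  ring

theorem lin_per (hk : 2 ≤ k) (Λ : ℂ) {lam τ : ℝ} (hlam : 0 < lam) {Z : ℝ → XW d k}
    {P : ℝ → XW d (k + 1)} {H : ℝ → XW d k} (hP : ContinuousOn P (Icc 0 τ))
    (hH : ContinuousOn H (Icc 0 τ)) (hZP : ∀ s, T Λ 1 s (Z s) = incl (P s))
    (hZ : ∀ s ∈ Icc 0 τ, HasDerivWithinAt Z (T Λ 1 (-s) (H s)) (Icc 0 τ) s) :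
    Lin Λ lam τ (fun s => per (rho lam s) (incl (P s)))
      fun s => (-I) • lapErr (rho lam s) (P s) + per (rho lam s) (H s) := by
  have hr : ContinuousOn (rho lam) (Icc 0 τ) := (continuous_rho lam).continuousOn
  have hr0 : ∀ s ∈ Icc 0 τ, 0 < rho lam s := fun s _ => rho_pos hlam s
  have hiP : ContinuousOn (fun s => (incl (P s) : XW d k)) (Icc 0 τ) :=
    incl.continuous.comp_continuousOn' hP
  have h0 : ContinuousOn (fun s => (-I) • lapErr (rho lam s) (P s)) (Icc 0 τ) :=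
    (continuousOn_lapErr hr hr0 hP).const_smul (-I)
  refine ⟨continuousOn_per hr hr0 hiP, h0.add (continuousOn_per hr hr0 hH), ?_⟩
  intro s hs n
  have h1 := per_deriv hk hlam Λ (hZ s hs) n
  simp only [hZP] at h1
  refine HasDerivWithinAt.congr_deriv h1 ?_
  have h2 := int_sq_cell hk (rho_pos hlam s) (P s) n
  unfold rho at h2 ⊢
  rw [h2]
  simp only [coef_add, coef_smul]
  ring

variable (B : Bg d m)

theorem lin_q (hk : 2 ≤ k) {lam : ℝ} (hlam : 0 < lam) (τ : ℝ) :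
    Lin B.Λ lam τ (fun s => per (rho lam s) (B.Qh k))
      fun s => (-I) • lapErr (rho lam s) (B.Qh (k + 1)) + per (rho lam s) ((-I) • B.Nh k) := by
  have h := lin_per hk B.Λ (τ := τ) hlam (Z := fun t => T B.Λ 1 (-t) (B.Qh k))
    (P := fun _ => B.Qh (k + 1)) (H := fun _ => (-I) • B.Nh k) continuousOn_const
    continuousOn_const (fun s => by rw [T_add, add_neg_cancel, T_zero, B.incl_Qh])
    fun s _ => (B.hasDerivAt_T_Qh hk s).hasDerivWithinAt
  simpa only [B.incl_Qh] using h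

theorem continuous_Bop (k : ℕ) : Continuous (B.Bop k) := by
  unfold Bg.Bop
  exact ((conv (B.V1h k)).continuous.add
    ((conv (B.V2h k)).continuous.comp st.continuous)).const_smul (-I)

theorem continuousOn_mild {τ : ℝ} {Z : ℝ → XW d k} (hZ : B.IsMild k τ Z) :
    ContinuousOn (fun s => T B.Λ 1 s (Z s)) (Icc 0 τ) := by
  have h1 : ContinuousOn Z (Icc 0 τ) := fun s hs => (hZ s hs).continuousWithinAt
  have h2 := (continuous_T_uncurry B.Λ 1).comp_continuousOn' (continuousOn_id.prodMk h1)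
  simpa only [id] using h2

theorem lin_p (hk : 2 ≤ k) {lam τ : ℝ} (hlam : 0 < lam) {Z : ℝ → XW d (k + 1)}
    (hZ : B.IsMild (k + 1) τ Z) :
    Lin B.Λ lam τ (fun s => per (rho lam s) (incl (T B.Λ 1 s (Z s))))
      fun s => (-I) • lapErr (rho lam s) (T B.Λ 1 s (Z s))
        + per (rho lam s) (B.Bop k (incl (T B.Λ 1 s (Z s)))) := by
  have hP := continuousOn_mild B hZ
  refine lin_per hk B.Λ hlam (Z := fun t => incl (Z t)) hP
    ((continuous_Bop B k).comp_continuousOn' (incl.continuous.comp_continuousOn' hP))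
    (fun s => (incl_T _ _ _ _).symm) fun s hs => ?_
  rw [incl_T]
  exact hZ.incl B s hs

end Vale.Agent.P139Z.Step
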