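import Vale.Agent.P139Z.Step.En

/-!
Block STEP, auxiliary file: the source term of the equation for the remainder.
-/

open Set Filter Topology MeasureTheory Complex
open scoped NNReal ENNReal ComplexConjugate ContDiff

namespace Vale.Agent.P139Z.Step

open Vale.Agent.P139 Vale.Agent.P139.A Vale.Agent.P139.A.WA XW

variable {d k m : ℕ}

theorem norm_incl_le (P : XW d (k + 1)) : ‖(incl P : XW d k)‖ ≤ ‖P‖ := by
  rw [XW.norm_eq, XW.norm_eq, nrmX_incl]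
  exact nrmX_mono P (Nat.le_succ k) le_rfl

theorem norm_st (F : XW d k) : ‖st F‖ = ‖F‖ := by
  rw [XW.norm_eq, XW.norm_eq, nrmX_st]

theorem src_identity (nu nq N L₁ L₂ V₁ V₂ v₁ v₂ w w' p p' c₁ c₂ : WA d k) :
    ((-I) • nu - ((-I) • L₁ + (-I) • N)) - ((-I) • L₂ + (-I) • (c₁ + c₂))
      = (-I) • (v₁ * (w - p) + v₂ * (w' - p'))
        + (-I) • (((nu - nq - (V₁ * w + V₂ * w')) + ((V₁ - v₁) * w + (V₂ - v₂) * w'))
          + ((v₁ * p - c₁) + (v₂ * p' - c₂)) + (nq - N) - (L₁ + L₂)) := by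
  rw [← smul_add, ← smul_add, ← smul_add, ← smul_sub, ← smul_sub]
  congr 1
  ring

/-- The source term of the equation for the remainder. -/
noncomputable def src (B : Bg d m) (k : ℕ) (ρ : ℝ) (u : WA d k) (P : XW d (k + 1)) : WA d k :=
  ((-I) • nl m u - ((-I) • lapErr ρ (B.Qh (k + 1)) + per ρ ((-I) • B.Nh k)))
    - ((-I) • lapErr ρ P + per ρ (B.Bop k (incl P)))

theorem src_split (B : Bg d m) (hm : 1 ≤ m) (k : ℕ) : ∃ C : ℝ, 0 ≤ C ∧
    ∀ (ρ ε f : ℝ) (u : WA d k) (P : XW d (k + 1)), Err B k ρ ε →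
      nrm ρ k (u - per ρ (B.Qh k)) ≤ f → f ≤ 1 → ∃ G : WA d k,
        src B k ρ u P = (-I) • (per ρ (B.V1h k) * (u - per ρ (B.Qh k) - per ρ (incl P))
          + per ρ (B.V2h k) * star (u - per ρ (B.Qh k) - per ρ (incl P))) + G ∧
        nrm ρ k G ≤ C * f ^ 2 + ε * (3 + ‖B.Qh (k + 1)‖ + 3 * ‖P‖) := by
  obtain ⟨C, hC, hCb⟩ := nrm_nl_rem (d := d) (k := k) hm (2 ^ k * ‖B.Qh k‖ + 1)
  refine ⟨C, hC, fun ρ ε f u P he hf hf1 => ?_⟩
  have hp := he.pos.le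
  have hε := he.nonneg
  obtain ⟨q, hq⟩ : ∃ q, q = per ρ (B.Qh k) := ⟨_, rfl⟩
  obtain ⟨w, hw⟩ : ∃ w, w = u - q := ⟨_, rfl⟩
  have hu : u = q + w := by rw [hw]; abel
  have hid := src_identity (nl m u) (nl m q) (per ρ (B.Nh k)) (lapErr ρ (B.Qh (k + 1)))
    (lapErr ρ P) (((m : ℂ) + 1) • (q * star q) ^ m) ((m : ℂ) • ((q * star q) ^ (m - 1) * (q * q)))
    (per ρ (B.V1h k)) (per ρ (B.V2h k)) w (star w) (per ρ (incl P)) (per ρ (st (incl P)))
    (per ρ (conv (B.V1h k) (incl P))) (per ρ (conv (B.V2h k) (st (incl P))))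
  unfold src Bg.Bop
  rw [map_smul, map_smul, map_add, ← hq, ← hw, star_sub, ← per_st he.pos]
  refine ⟨_, hid, ?_⟩
  · rw [nrm_negI]
    rw [← hq, ← hw] at hf
    have hw0 := nrm_nonneg hp k w
    have hqn : nrm ρ k q ≤ 2 ^ k * ‖B.Qh k‖ := hq ▸ nrm_per_le he.pos he.le_one (B.Qh k)
    have hQ : 0 ≤ 2 ^ k * ‖B.Qh k‖ := by positivity
    have h1 := hCb ρ hp q w (hqn.trans (le_add_of_nonneg_right zero_le_one)) (by linarith)
    rw [← hu] at h1
    have h1' : C * nrm ρ k w ^ 2 ≤ C * f ^ 2 :=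
      mul_le_mul_of_nonneg_left (pow_le_pow_left₀ hw0 hf 2) hC
    have e1 := he.eV1
    have e2 := he.eV2
    have eN := he.eN
    rw [← hq] at e1 e2 eN
    have h2 := (nrm_mul_le hp le_rfl _ w).trans (mul_le_mul e1 (hf.trans hf1) hw0 hε)
    have h3 := (nrm_mul_le hp le_rfl _ (star w)).trans
      (mul_le_mul e2 ((nrm_star ρ k w).le.trans (hf.trans hf1)) (nrm_nonneg hp k _) hε)
    have hX := norm_incl_le P
    have h4 := (he.c1 (incl P)).trans (mul_le_mul_of_nonneg_left hX hε)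
    have h5 := (he.c2 (st (incl P))).trans
      (mul_le_mul_of_nonneg_left ((norm_st _).le.trans hX) hε)
    have h6 := he.lap (B.Qh (k + 1))
    have h7 := he.lap P
    have a1 := (nrm_add_le hp le_rfl _ _).trans (add_le_add (h1.trans h1')
      ((nrm_add_le hp le_rfl _ _).trans (add_le_add h2 h3)))
    have a2 := (nrm_add_le hp le_rfl _ _).trans (add_le_add h4 h5)
    have a3 := (nrm_add_le hp le_rfl _ _).trans (add_le_add h6 h7)
    have a4 := (nrm_add_le hp le_rfl _ _).trans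
      (add_le_add ((nrm_add_le hp le_rfl _ _).trans (add_le_add a1 a2)) eN)
    refine ((nrm_sub_le hp le_rfl _ _).trans (add_le_add a4 a3)).trans (le_of_eq ?_)
    ring

theorem pot_low (B : Bg d m) {ρ : ℝ} (h0 : 0 < ρ) (h1 : ρ ≤ 1) (z G : WA d k) :
    nrm ρ (k - 1) ((-I) • (per ρ (B.V1h k) * z + per ρ (B.V2h k) * star z) + G)
      ≤ 2 ^ k * (‖B.V1h k‖ + ‖B.V2h k‖) * nrm ρ (k - 1) z + nrm ρ k G := by
  have hp := h0.le
  have hk1 : k - 1 ≤ k := Nat.sub_le k 1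
  refine (nrm_add_le hp hk1 _ _).trans (add_le_add ?_ (nrm_mono_order hp hk1 le_rfl G))
  rw [nrm_negI]
  have hz := nrm_nonneg hp (k - 1) z
  have a1 := (nrm_mul_le hp hk1 (per ρ (B.V1h k)) z).trans (mul_le_mul_of_nonneg_right
    ((nrm_mono_order hp hk1 le_rfl _).trans (nrm_per_le h0 h1 _)) hz)
  have a2 := (nrm_mul_le hp hk1 (per ρ (B.V2h k)) (star z))
  rw [nrm_star] at a2
  have a3 := a2.trans (mul_le_mul_of_nonneg_right
    ((nrm_mono_order hp hk1 le_rfl _).trans (nrm_per_le h0 h1 _)) hz)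
  refine ((nrm_add_le hp hk1 _ _).trans (add_le_add a1 a3)).trans (le_of_eq ?_)
  ring

theorem pot_high (B : Bg d m) (hm : 1 ≤ m) {ρ : ℝ} (h0 : 0 < ρ) (h1 : ρ ≤ 1) (z G : WA d k) :
    nrm ρ k ((-I) • (per ρ (B.V1h k) * z + per ρ (B.V2h k) * star z) + G)
      ≤ B.K0 * nrm ρ k z + k * (2 ^ k * (‖B.V1h k‖ + ‖B.V2h k‖)) * nrm ρ (k - 1) z
        + nrm ρ k G := by
  have hp := h0.le
  refine (nrm_add_le hp le_rfl _ _).trans (add_le_add ?_ le_rfl)
  rw [nrm_negI]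
  have hz := nrm_nonneg hp (k - 1) z
  have hz' := nrm_nonneg hp k z
  have hk : (0 : ℝ) ≤ k := Nat.cast_nonneg k
  have a1 := nrm_mul_le_LY hp (per ρ (B.V1h k)) z
  have a2 := nrm_mul_le_LY hp (per ρ (B.V2h k)) (star z)
  rw [nrm_star, nrm_star] at a2
  have b1 := mul_le_mul_of_nonneg_right (nrm_per_zero h0 (B.V1h k)) hz'
  have b2 := mul_le_mul_of_nonneg_right (nrm_per_zero h0 (B.V2h k)) hz'
  have b3 := mul_le_mul_of_nonneg_right (B.nrmX_zero_V hm k) hz'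
  have c1 := mul_le_mul_of_nonneg_right
    (mul_le_mul_of_nonneg_left (nrm_per_le h0 h1 (B.V1h k)) hk) hz
  have c2 := mul_le_mul_of_nonneg_right
    (mul_le_mul_of_nonneg_left (nrm_per_le h0 h1 (B.V2h k)) hk) hz
  have := nrm_add_le hp le_rfl (per ρ (B.V1h k) * z) (per ρ (B.V2h k) * star z)
  linarith

theorem K0_nonneg (B : Bg d m) : 0 ≤ B.K0 := by
  unfold Bg.K0
  have : 0 ≤ ∫ ξ, ‖B.Q ξ‖ := integral_nonneg fun _ => norm_nonneg _
  positivity

end Vale.Agent.P139Z.Step
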